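import Vale.Agent.P237.Petty.Cor.Low20.Chunks
import Vale.Agent.P237.Petty.Cor.Low20.H3c.Data

/-!
# P237: kernel checks of boxes 21 to 21
-/

namespace Vale.Agent.P237.Petty.Cor.Low20.H3c

def check21_0 : cutAll dat.Z1
    ((boxAll dat box21).take 9)
  [.leaf, .leaf, .leaf, .leaf, .leaf, (.split 0 (.split 1 .leaf .leaf) (.split 1 .leaf .leaf)),
    .leaf, (.split 0 (.split 1 .leaf (.split 0 (.split 1 .leaf (.split 0 .leaf (.split 1 .leaf
    (.split 0 (.split 1 .leaf .out) (.split 1 (.split 0 .leaf (.split 1 .leaf .out)) .out)))))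
    (.split 1 .leaf (.split 0 (.split 1 (.split 0 .leaf (.split 1 .leaf (.split 0 .leaf (.split 1
    .leaf .out)))) .out) (.split 1 (.split 0 (.split 1 .leaf .out) (.split 1 (.split 0 .leaf (.split
    1 .leaf .out)) .out)) .out))))) (.split 1 .leaf (.split 0 (.split 1 (.split 0 (.split 1 .leaf
    (.split 0 .leaf (.split 1 .leaf (.split 0 .leaf (.split 1 .leaf .out))))) (.split 1 .leaf
    (.split 0 (.split 1 .leaf .out) (.split 1 (.split 0 .leaf (.split 1 .leaf .out)) .out)))) .out)
    (.split 1 (.split 0 (.split 1 .leaf .out) (.split 1 (.split 0 (.split 1 .leaf (.split 0 (.split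
    1 .leaf .out) .out)) (.split 1 .leaf .out)) .out)) .out)))), .leaf] = true := by
  decide +kernel

def check21_1 : cutAll dat.Z1
    (((boxAll dat box21).drop 9).take 3)
  [(.split 0 (.split 1 .leaf (.split 0 (.split 1 .leaf (.split 0 .leaf (.split 1 .leaf (.split 0
    .leaf (.split 1 .leaf .out))))) (.split 1 .leaf (.split 0 (.split 1 .leaf .out) (.split 1
    (.split 0 (.split 1 .leaf .out) (.split 1 (.split 0 .leaf (.split 1 .leaf .out)) .out))
    .out))))) (.split 1 .leaf (.split 0 (.split 1 (.split 0 (.split 1 .leaf (.split 0 .leaf (.split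
    1 .leaf (.split 0 .leaf (.split 1 .leaf .out))))) (.split 1 .leaf (.split 0 (.split 1 .leaf
    .out) (.split 1 (.split 0 (.split 1 .leaf .out) (.split 1 .leaf .out)) .out)))) .out) (.split 1
    (.split 0 (.split 1 (.split 0 .leaf (.split 1 .leaf (.split 0 (.split 1 .leaf .out) (.split 1
    .leaf .out)))) .out) (.split 1 (.split 0 (.split 1 .leaf (.split 0 (.split 1 (.split 0 .leaf
    .out) .out) .out)) (.split 1 (.split 0 (.split 1 .leaf (.split 0 .leaf (.split 1 .leaf .out)))
    (.split 1 .leaf .out)) .out)) .out)) .out)))), .leaf, (.split 0 (.split 2 (.split 1 (.split 0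
    .leaf .leaf) .leaf) (.split 1 (.split 0 .leaf .leaf) .leaf)) .leaf)] = true := by
  decide +kernel

def check21_2 : cutAll dat.Z1
    ((((boxAll dat box21).drop 9).drop 3).take 9)
  [(.split 0 (.split 2 (.split 1 (.split 0 .leaf .leaf) .leaf) (.split 1 (.split 0 .leaf .leaf)
    .leaf)) .leaf), (.split 0 (.split 0 .leaf (.split 0 .leaf .leaf)) .leaf), (.split 0 (.split 0
    .leaf (.split 0 .leaf .leaf)) .leaf), (.split 0 (.split 0 .leaf (.split 0 .leaf .leaf)) .leaf),
    (.split 0 (.split 0 .leaf (.split 0 .leaf .leaf)) .leaf), (.split 0 (.split 0 .leaf (.split 0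
    .leaf .leaf)) .leaf), (.split 0 (.split 0 .leaf (.split 0 .leaf .leaf)) .leaf), (.split 0
    (.split 2 (.split 1 (.split 0 .leaf .leaf) .leaf) (.split 1 (.split 0 .leaf .leaf) .leaf))
    .leaf), (.split 0 (.split 2 (.split 1 (.split 0 .leaf .leaf) .leaf) (.split 1 (.split 0 .leaf
    .leaf) .leaf)) .leaf)] = true := by
  decide +kernel

def check21_3 : cutAll dat.Z1
    (((((boxAll dat box21).drop 9).drop 3).drop 9).take 14)
  [(.split 0 (.split 2 (.split 1 (.split 0 .leaf .leaf) .leaf) (.split 1 (.split 0 .leaf .leaf)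
    .leaf)) .leaf), (.split 0 (.split 0 .leaf (.split 0 .leaf .leaf)) .leaf), (.split 0 (.split 0
    .leaf (.split 0 .leaf .leaf)) .leaf), (.split 0 (.split 0 .leaf (.split 0 .leaf .leaf)) .leaf),
    (.split 0 (.split 0 .leaf (.split 0 .leaf .leaf)) .leaf), (.split 0 (.split 0 .leaf (.split 0
    .leaf .leaf)) .leaf), (.split 0 (.split 0 .leaf (.split 0 .leaf .leaf)) .leaf), (.split 0
    (.split 2 (.split 1 (.split 0 .leaf .leaf) .leaf) (.split 1 (.split 0 .leaf .leaf) .leaf))
    .leaf), .leaf, .leaf, (.split 0 .leaf .leaf), .leaf, .leaf, .leaf] = true := by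
  decide +kernel

def check21_4 : cutAll dat.Z1
    (((((boxAll dat box21).drop 9).drop 3).drop 9).drop 14)
  [.leaf, .leaf, .leaf] = true := by
  decide +kernel

theorem sound21 : BoxSound dat box21 ∧ TopSound dat box21 :=
  bound_of_boxAll
    (cutAll_of_take 9 check21_0
      (cutAll_of_take 3 check21_1
      (cutAll_of_take 9 check21_2
      (cutAll_of_take 14 check21_3
      check21_4))))

end Vale.Agent.P237.Petty.Cor.Low20.H3c
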