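import Vale.Agent.P237.Petty.Cor.Low20.Chunks
import Vale.Agent.P237.Petty.Cor.Low20.H3c.Data

/-!
# P237: kernel checks of boxes 14 to 15
-/

namespace Vale.Agent.P237.Petty.Cor.Low20.H3c

def check14_0 : cutAll dat.Z1
    ((boxAll dat box14).take 27)
  [.leaf, .leaf, .leaf, .leaf, .leaf, .leaf, .leaf, .leaf, .leaf, .leaf, .leaf, .leaf, .leaf, .leaf,
    .leaf, .leaf, .leaf, (.split 2 .leaf (.split 2 .leaf (.split 0 .leaf (.split 2 .leaf (.split 2
    .leaf (.split 0 .leaf .leaf)))))), (.split 2 (.split 0 .leaf (.split 2 (.split 0 (.split 2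
    (.split 0 .leaf .leaf) .leaf) .leaf) .leaf)) .leaf), .leaf, .leaf, .leaf, .leaf, .leaf, .leaf,
    .leaf, (.split 2 .leaf (.split 2 .leaf (.split 0 .leaf (.split 2 .leaf (.split 2 .leaf (.split 0
    .leaf .leaf))))))] = true := by
  decide +kernel

def check14_1 : cutAll dat.Z1
    ((boxAll dat box14).drop 27)
  [(.split 2 (.split 0 .leaf (.split 2 (.split 0 (.split 2 (.split 0 .leaf .leaf) .leaf) .leaf)
    .leaf)) .leaf), .leaf, .leaf, .leaf, (.split 0 .leaf .leaf), .leaf, .leaf, .leaf, .leaf, .leaf,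
    .leaf] = true := by
  decide +kernel

theorem sound14 : BoxSound dat box14 ∧ TopSound dat box14 :=
  bound_of_boxAll
    (cutAll_of_take 27 check14_0
      check14_1)

def check15_0 : cutAll dat.Z1
    ((boxAll dat box15).take 26)
  [.leaf, .leaf, .leaf, .leaf, .leaf, .leaf, .leaf, .leaf, .leaf, .leaf, .leaf, .leaf, .leaf, .leaf,
    .leaf, .leaf, .leaf, (.split 2 .leaf (.split 2 .leaf (.split 0 .leaf (.split 2 .leaf (.split 2
    .leaf (.split 0 .leaf .leaf)))))), (.split 0 .leaf (.split 2 (.split 2 (.split 1 (.split 0 .leaf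
    .leaf) .leaf) (.split 1 (.split 0 .leaf .leaf) .leaf)) .leaf)), .leaf, .leaf, .leaf, .leaf,
    .leaf, .leaf, .leaf] = true := by
  decide +kernel

def check15_1 : cutAll dat.Z1
    ((boxAll dat box15).drop 26)
  [(.split 2 .leaf (.split 2 .leaf (.split 0 .leaf (.split 2 .leaf (.split 2 .leaf (.split 0 .leaf
    .leaf)))))), (.split 0 .leaf (.split 2 (.split 2 (.split 1 (.split 0 .leaf .leaf) .leaf) (.split
    1 (.split 0 .leaf .leaf) .leaf)) .leaf)), .leaf, .leaf, .leaf, (.split 0 .leaf .leaf), .leaf,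
    .leaf, .leaf, .leaf, .leaf, .leaf] = true := by
  decide +kernel

theorem sound15 : BoxSound dat box15 ∧ TopSound dat box15 :=
  bound_of_boxAll
    (cutAll_of_take 26 check15_0
      check15_1)

end Vale.Agent.P237.Petty.Cor.Low20.H3c
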