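import Vale.Agent.P237.Petty.Cor.Low20.Chunks
import Vale.Agent.P237.Petty.Cor.Low20.H3c.Data

/-!
# P237: kernel checks of boxes 16 to 17
-/

namespace Vale.Agent.P237.Petty.Cor.Low20.H3c

def check16_0 : cutAll dat.Z1
    ((boxAll dat box16).take 26)
  [.leaf, .leaf, .leaf, .leaf, .leaf, (.split 0 .leaf (.split 1 .leaf .leaf)), .leaf, .leaf, .leaf,
    .leaf, (.split 0 .leaf .leaf), .leaf, .leaf, .leaf, .leaf, .leaf, .leaf, (.split 2 .leaf (.split
    2 .leaf (.split 0 .leaf (.split 2 .leaf (.split 2 .leaf (.split 0 .leaf .leaf)))))), (.split 0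
    .leaf (.split 2 (.split 1 (.split 0 .leaf .leaf) .leaf) (.split 1 (.split 0 .leaf .leaf)
    .leaf))), .leaf, .leaf, .leaf, .leaf, .leaf, .leaf, .leaf] = true := by
  decide +kernel

def check16_1 : cutAll dat.Z1
    ((boxAll dat box16).drop 26)
  [(.split 2 .leaf (.split 2 .leaf (.split 0 .leaf (.split 2 .leaf (.split 2 .leaf (.split 0 .leaf
    .leaf)))))), (.split 0 .leaf (.split 2 (.split 1 (.split 0 .leaf .leaf) .leaf) (.split 1 (.split
    0 .leaf .leaf) .leaf))), .leaf, .leaf, .leaf, (.split 0 .leaf .leaf), .leaf, .leaf, .leaf,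
    .leaf, .leaf, .leaf] = true := by
  decide +kernel

theorem sound16 : BoxSound dat box16 ∧ TopSound dat box16 :=
  bound_of_boxAll
    (cutAll_of_take 26 check16_0
      check16_1)

def check17_0 : cutAll dat.Z1
    ((boxAll dat box17).take 25)
  [.leaf, .leaf, .leaf, .leaf, .leaf, .leaf, .leaf, .leaf, .leaf, .leaf, (.split 0 .leaf .leaf),
    .leaf, .leaf, .leaf, .leaf, .leaf, (.split 2 .leaf (.split 2 .leaf .leaf)), (.split 2 (.split 2
    (.split 0 .leaf .leaf) (.split 0 .leaf .leaf)) (.split 2 (.split 0 .leaf .leaf) (.split 0 .leaf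
    .leaf))), (.split 2 (.split 2 (.split 0 .leaf .leaf) (.split 0 .leaf .leaf)) (.split 2 (.split 0
    .leaf .leaf) (.split 0 .leaf .leaf))), (.split 2 (.split 2 (.split 0 .leaf .leaf) .leaf) .leaf),
    .leaf, .leaf, .leaf, .leaf, .leaf] = true := by
  decide +kernel

def check17_1 : cutAll dat.Z1
    ((boxAll dat box17).drop 25)
  [(.split 2 .leaf (.split 2 .leaf .leaf)), (.split 2 (.split 2 (.split 0 .leaf .leaf) (.split 0
    .leaf .leaf)) (.split 2 (.split 0 .leaf .leaf) (.split 0 .leaf .leaf))), (.split 2 (.split 2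
    (.split 0 .leaf .leaf) (.split 0 .leaf .leaf)) (.split 2 (.split 0 .leaf .leaf) (.split 0 .leaf
    .leaf))), (.split 2 (.split 2 (.split 0 .leaf .leaf) .leaf) .leaf), .leaf, .leaf, (.split 0
    .leaf .leaf), .leaf, .leaf, .leaf, .leaf, .leaf, .leaf] = true := by
  decide +kernel

theorem sound17 : BoxSound dat box17 ∧ TopSound dat box17 :=
  bound_of_boxAll
    (cutAll_of_take 25 check17_0
      check17_1)

end Vale.Agent.P237.Petty.Cor.Low20.H3c
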