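import Vale.Agent.P237.Petty.Cor.Low20.Chunks
import Vale.Agent.P237.Petty.Cor.Low20.H3c.Data

/-!
# P237: kernel checks of boxes 18 to 18
-/

namespace Vale.Agent.P237.Petty.Cor.Low20.H3c

def check18_0 : cutAll dat.Z1
    ((boxAll dat box18).take 10)
  [.leaf, .leaf, .leaf, .leaf, .leaf, (.split 0 .leaf (.split 1 .leaf .leaf)), .leaf, (.split 1
    .leaf (.split 0 .leaf (.split 1 .leaf (.split 1 .leaf (.split 0 (.split 1 .leaf (.split 1 .leaf
    (.split 0 .leaf (.split 1 (.split 1 .leaf .out) .out)))) (.split 1 (.split 1 .leaf (.split 0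
    .leaf .out)) .out)))))), .leaf, (.split 0 .leaf (.split 1 .leaf (.split 0 (.split 1 .leaf
    (.split 0 .leaf (.split 1 .leaf (.split 0 .leaf (.split 1 .leaf (.split 0 .leaf (.split 1 .leaf
    .out))))))) (.split 1 .leaf (.split 0 (.split 1 .leaf (.split 0 (.split 1 .leaf .out) (.split 1
    (.split 0 .leaf (.split 1 .leaf (.split 0 .leaf (.split 1 .leaf .out)))) .out))) (.split 1 .leaf
    (.split 0 (.split 1 (.split 0 (.split 1 .leaf .out) (.split 1 .leaf .out)) .out) (.split 1
    (.split 0 (.split 1 (.split 0 (.split 1 .leaf .out) (.split 1 .leaf .out)) .out) (.split 1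
    (.split 0 (.split 1 .leaf .out) .out) .out)) .out))))))))] = true := by
  decide +kernel

def check18_1 : cutAll dat.Z1
    (((boxAll dat box18).drop 10).take 9)
  [(.split 0 (.split 1 .leaf (.split 0 .leaf .leaf)) .leaf), .leaf, .leaf, .leaf, (.split 2 .leaf
    (.split 2 (.split 0 .leaf .leaf) (.split 0 .leaf .leaf))), (.split 2 (.split 2 (.split 0 .leaf
    .leaf) (.split 0 .leaf .leaf)) (.split 2 (.split 0 .leaf .leaf) (.split 0 .leaf .leaf))),
    (.split 2 (.split 2 (.split 0 .leaf .leaf) (.split 0 .leaf .leaf)) (.split 2 (.split 0 .leaf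
    .leaf) (.split 0 .leaf .leaf))), (.split 2 (.split 2 (.split 0 .leaf .leaf) (.split 0 .leaf
    .leaf)) (.split 2 (.split 0 .leaf .leaf) (.split 0 .leaf .leaf))), (.split 2 (.split 2 (.split 0
    .leaf .leaf) (.split 0 .leaf .leaf)) (.split 2 (.split 0 .leaf .leaf) (.split 0 .leaf .leaf)))] = true := by
  decide +kernel

def check18_2 : cutAll dat.Z1
    ((((boxAll dat box18).drop 10).drop 9).take 8)
  [(.split 2 (.split 2 (.split 0 .leaf .leaf) (.split 0 .leaf .leaf)) (.split 2 (.split 0 .leaf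
    .leaf) (.split 0 .leaf .leaf))), .leaf, .leaf, .leaf, (.split 2 .leaf (.split 2 (.split 0 .leaf
    .leaf) (.split 0 .leaf .leaf))), (.split 2 (.split 2 (.split 0 .leaf .leaf) (.split 0 .leaf
    .leaf)) (.split 2 (.split 0 .leaf .leaf) (.split 0 .leaf .leaf))), (.split 2 (.split 2 (.split 0
    .leaf .leaf) (.split 0 .leaf .leaf)) (.split 2 (.split 0 .leaf .leaf) (.split 0 .leaf .leaf))),
    (.split 2 (.split 2 (.split 0 .leaf .leaf) (.split 0 .leaf .leaf)) (.split 2 (.split 0 .leaf
    .leaf) (.split 0 .leaf .leaf)))] = true := by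
  decide +kernel

def check18_3 : cutAll dat.Z1
    ((((boxAll dat box18).drop 10).drop 9).drop 8)
  [(.split 2 (.split 2 (.split 0 .leaf .leaf) (.split 0 .leaf .leaf)) (.split 2 (.split 0 .leaf
    .leaf) (.split 0 .leaf .leaf))), (.split 2 (.split 2 (.split 0 .leaf .leaf) (.split 0 .leaf
    .leaf)) (.split 2 (.split 0 .leaf .leaf) (.split 0 .leaf .leaf))), .leaf, .leaf, (.split 0 .leaf
    .leaf), .leaf, .leaf, .leaf, .leaf, .leaf, .leaf] = true := by
  decide +kernel

theorem sound18 : BoxSound dat box18 ∧ TopSound dat box18 :=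
  bound_of_boxAll
    (cutAll_of_take 10 check18_0
      (cutAll_of_take 9 check18_1
      (cutAll_of_take 8 check18_2
      check18_3)))

end Vale.Agent.P237.Petty.Cor.Low20.H3c
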