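import Vale.Agent.P237.Petty.Cor.Low20.Chunks
import Vale.Agent.P237.Petty.Cor.Low20.H3c.Data

/-!
# P237: kernel checks of boxes 19 to 19
-/

namespace Vale.Agent.P237.Petty.Cor.Low20.H3c

def check19_0 : cutAll dat.Z1
    ((boxAll dat box19).take 9)
  [.leaf, .leaf, .leaf, .leaf, .leaf, (.split 0 (.split 1 .leaf .leaf) (.split 1 .leaf .leaf)),
    .leaf, (.split 1 .leaf (.split 0 (.split 1 .leaf (.split 1 .leaf (.split 0 (.split 1 .leaf
    (.split 1 .leaf (.split 0 .leaf .out))) (.split 1 (.split 1 (.split 0 .leaf .out) (.split 0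
    (.split 1 .leaf .out) .out)) .out)))) (.split 1 .leaf (.split 1 (.split 0 (.split 1 .leaf
    (.split 1 (.split 0 .leaf .out) .out)) (.split 1 (.split 1 (.split 0 .leaf .out) .out) .out))
    .out)))), .leaf] = true := by
  decide +kernel

def check19_1 : cutAll dat.Z1
    (((boxAll dat box19).drop 9).take 1)
  [(.split 0 (.split 1 .leaf (.split 0 .leaf (.split 1 .leaf (.split 0 (.split 1 .leaf (.split 0
    (.split 1 .leaf .out) (.split 1 .leaf .out))) (.split 1 .leaf .out))))) (.split 1 .leaf (.split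
    0 (.split 1 .leaf (.split 0 (.split 1 (.split 0 (.split 1 .leaf (.split 0 .leaf (.split 1 .leaf
    .out))) (.split 1 .leaf (.split 0 (.split 1 .leaf .out) .out))) .out) (.split 1 (.split 0
    (.split 1 .leaf .out) (.split 1 (.split 0 (.split 1 .leaf (.split 0 (.split 1 .leaf .out) .out))
    (.split 1 .leaf .out)) .out)) .out))) (.split 1 (.split 0 (.split 1 .leaf (.split 0 .leaf
    (.split 1 .leaf (.split 0 .leaf (.split 1 .leaf (.split 0 .leaf (.split 1 .leaf .out)))))))
    (.split 1 .leaf (.split 0 (.split 1 .leaf (.split 0 (.split 1 .leaf (.split 0 (.split 1 .leaf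
    .out) (.split 1 .leaf .out))) (.split 1 .leaf (.split 0 (.split 1 (.split 0 (.split 1 .leaf
    .out) (.split 1 .leaf .out)) .out) .out)))) (.split 1 .leaf (.split 0 (.split 1 (.split 0 .leaf
    (.split 1 .leaf (.split 0 (.split 1 .leaf .out) (.split 1 .leaf .out)))) .out) (.split 1 (.split
    0 (.split 1 .leaf (.split 0 (.split 1 .leaf .out) (.split 1 .leaf .out))) (.split 1 .leaf .out))
    .out)))))) (.split 0 (.split 1 (.split 0 (.split 1 (.split 0 (.split 1 (.split 0 .leaf (.split 1
    .leaf .out)) .out) (.split 1 (.split 0 (.split 1 .leaf .out) (.split 1 .leaf .out)) .out)) .out)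
    .out) .out) .out)))))] = true := by
  decide +kernel

def check19_2 : cutAll dat.Z1
    ((((boxAll dat box19).drop 9).drop 1).take 8)
  [.leaf, (.split 2 (.split 2 .leaf (.split 0 .leaf .leaf)) (.split 2 (.split 0 .leaf .leaf) (.split
    0 .leaf .leaf))), (.split 2 (.split 2 (.split 0 .leaf .leaf) (.split 0 .leaf .leaf)) (.split 2
    (.split 0 .leaf .leaf) (.split 0 .leaf .leaf))), (.split 0 (.split 2 (.split 1 (.split 0 .leaf
    .leaf) .leaf) (.split 1 (.split 0 .leaf .leaf) .leaf)) .leaf), (.split 0 (.split 2 (.split 1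
    (.split 0 .leaf .leaf) .leaf) (.split 1 (.split 0 .leaf .leaf) .leaf)) .leaf), (.split 0 (.split
    2 (.split 1 (.split 0 .leaf .leaf) .leaf) (.split 1 (.split 0 .leaf .leaf) .leaf)) .leaf),
    (.split 0 (.split 0 .leaf (.split 0 .leaf .leaf)) .leaf), (.split 0 (.split 0 .leaf (.split 0
    .leaf .leaf)) .leaf)] = true := by
  decide +kernel

def check19_3 : cutAll dat.Z1
    (((((boxAll dat box19).drop 9).drop 1).drop 8).take 6)
  [(.split 0 (.split 0 .leaf (.split 0 .leaf .leaf)) .leaf), (.split 0 (.split 2 (.split 1 (.split 0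
    .leaf .leaf) .leaf) (.split 1 (.split 0 .leaf .leaf) .leaf)) .leaf), (.split 2 (.split 2 .leaf
    (.split 0 .leaf .leaf)) (.split 2 (.split 0 .leaf .leaf) (.split 0 .leaf .leaf))), (.split 2
    (.split 2 (.split 0 .leaf .leaf) (.split 0 .leaf .leaf)) (.split 2 (.split 0 .leaf .leaf)
    (.split 0 .leaf .leaf))), (.split 0 (.split 2 (.split 1 (.split 0 .leaf .leaf) .leaf) (.split 1
    (.split 0 .leaf .leaf) .leaf)) .leaf), (.split 0 (.split 2 (.split 1 (.split 0 .leaf .leaf)
    .leaf) (.split 1 (.split 0 .leaf .leaf) .leaf)) .leaf)] = true := by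
  decide +kernel

def check19_4 : cutAll dat.Z1
    (((((boxAll dat box19).drop 9).drop 1).drop 8).drop 6)
  [(.split 0 (.split 2 (.split 1 (.split 0 .leaf .leaf) .leaf) (.split 1 (.split 0 .leaf .leaf)
    .leaf)) .leaf), (.split 0 (.split 0 .leaf (.split 0 .leaf .leaf)) .leaf), (.split 0 (.split 0
    .leaf (.split 0 .leaf .leaf)) .leaf), (.split 0 (.split 0 .leaf (.split 0 .leaf .leaf)) .leaf),
    (.split 0 (.split 2 (.split 1 (.split 0 .leaf .leaf) .leaf) (.split 1 (.split 0 .leaf .leaf)
    .leaf)) .leaf), (.split 0 .leaf (.split 1 .leaf (.split 0 .leaf (.split 1 .leaf (.split 0 .leaf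
    .out))))), .leaf, (.split 0 .leaf .leaf), .leaf, .leaf, .leaf, .leaf, .leaf, .leaf] = true := by
  decide +kernel

theorem sound19 : BoxSound dat box19 ∧ TopSound dat box19 :=
  bound_of_boxAll
    (cutAll_of_take 9 check19_0
      (cutAll_of_take 1 check19_1
      (cutAll_of_take 8 check19_2
      (cutAll_of_take 6 check19_3
      check19_4))))

end Vale.Agent.P237.Petty.Cor.Low20.H3c
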